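import Vale.Agent.P070.Statement
import Vale.Agent.P070.Literal
import Vale.Agent.P070.NotCompact
import Vale.Agent.P070.Model
import Vale.Agent.P070.Excise
import Vale.Agent.P070.Link
import Vale.Agent.P070.Link.Step
import Vale.Agent.P070.Class
import Vale.Agent.P070.Atlas
import Vale.Agent.P070.Unique.Main

open scoped InnerProductSpace

namespace Vale.Agent.Results.P070.NaimarkCounterexample

open Vale.Agent.P070

universe u v w

/-- A counterexample to Naimark's problem, in ZFC. -/
theorem result :
    ∃ (A : Type) (_ : CStarAlgebra A), HasIrredRep.{0} A ∧ HasUniqueIrredRep.{u, v} A ∧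
      ¬ IsoToCompactOperators.{w} A := by
  obtain ⟨A, _, hex, heq, hnc⟩ := literal_of_target.{u, v, w} (uniqueModule carSpec carSpec carSpec
    (classModule carSpec carSpec) (classModule carSpec carSpec) notCompactSpec
    (atlasModule carSpec (Link.linkModule_of Link.stepSpec carSpec (exciseModule carSpec))).some)
  obtain ⟨H, _, _, _, π, h0, hirr⟩ := hex
  refine ⟨A, inferInstance, ⟨H, inferInstance, inferInstance, inferInstance, π,
    fun h => h0 (DFunLike.coe_injective h), hirr⟩,
    fun H₁ _ _ _ H₂ _ _ _ π σ hπ hσ =>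
      heq H₁ H₂ π σ (fun h => hπ.1 (congrArg DFunLike.coe h)) hπ.2
        (fun h => hσ.1 (congrArg DFunLike.coe h)) hσ.2, ?_⟩
  rintro ⟨H, _, _, _, φ, hi, hr⟩
  exact hnc H φ hi hr

end Vale.Agent.Results.P070.NaimarkCounterexample
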